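import Vale.Agent.P194.Central
import Vale.Agent.P194.FreeResNilp
import Vale.Agent.P194.ResP

/-!
# P194: three kinds of group extensions preserve direct and stable finiteness of group algebras

Let `φ : G →* Q` be a homomorphism of arbitrary groups.  In each of the following three cases,
if `K[Q]` is directly finite then so is `K[G]`, and if `K[Q]` is stably finite then so is `K[G]`:

(1) `K` any commutative ring, the kernel of `φ` a free group of arbitrary rank;
(2) `K` a commutative ring of prime characteristic `p`, the kernel of `φ` residually a finite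
    `p`-group (no finite generation assumed);
(3) `K` a field of characteristic exponent `p`, the kernel of `φ` central in `G` and every element
    of finite order of the kernel of order a power of `p` (torsion-free kernel when `p = 1`).
-/

namespace Vale.Agent.Results.P194.AllExtensions

universe u v w

theorem result :
    (∀ (K : Type u) [CommRing K] (G : Type v) (Q : Type w) [Group G] [Group Q] (φ : G →* Q)
      [IsFreeGroup φ.ker],
      (IsDedekindFiniteMonoid (MonoidAlgebra K Q) → IsDedekindFiniteMonoid (MonoidAlgebra K G)) ∧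
      (IsStablyFiniteRing (MonoidAlgebra K Q) → IsStablyFiniteRing (MonoidAlgebra K G))) ∧
    (∀ (p : ℕ) [Fact p.Prime] (K : Type u) [CommRing K] [CharP K p]
      (G : Type v) (Q : Type w) [Group G] [Group Q] (φ : G →* Q),
      (∀ x : φ.ker, x ≠ 1 →
        ∃ M : Subgroup φ.ker, M.Normal ∧ (∃ k : ℕ, M.index = p ^ k) ∧ x ∉ M) →
      (IsDedekindFiniteMonoid (MonoidAlgebra K Q) → IsDedekindFiniteMonoid (MonoidAlgebra K G)) ∧
      (IsStablyFiniteRing (MonoidAlgebra K Q) → IsStablyFiniteRing (MonoidAlgebra K G))) ∧
    (∀ (K : Type u) [Field K] (p : ℕ) [ExpChar K p] (G : Type v) (Q : Type w) [Group G] [Group Q]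
      (φ : G →* Q), φ.ker ≤ Subgroup.center G →
      (∀ z ∈ φ.ker, IsOfFinOrder z → ∃ k : ℕ, z ^ (p ^ k) = 1) →
      (IsDedekindFiniteMonoid (MonoidAlgebra K Q) → IsDedekindFiniteMonoid (MonoidAlgebra K G)) ∧
      (IsStablyFiniteRing (MonoidAlgebra K Q) → IsStablyFiniteRing (MonoidAlgebra K G))) := by
  refine ⟨?_, ?_, ?_⟩
  · intro K _ G Q _ _ φ _
    exact ⟨fun _ => Vale.Agent.P194.dedekindFinite_of_resNilp φ Vale.Agent.P194.isFreeGroup_resNilp,
      fun _ => Vale.Agent.P194.stablyFinite_of_resNilp φ Vale.Agent.P194.isFreeGroup_resNilp⟩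
  · intro p _ K _ _ G Q _ _ φ hres
    exact ⟨fun _ => Vale.Agent.P194.dedekindFinite_of_resNilp φ
        (Vale.Agent.P194.resNilp_of_resP p hres),
      fun _ => Vale.Agent.P194.stablyFinite_of_resNilp φ
        (Vale.Agent.P194.resNilp_of_resP p hres)⟩
  · intro K _ p _ G Q _ _ φ hc ht
    exact ⟨fun _ => Vale.Agent.P194.dedekindFinite_of_central φ hc
        (Vale.Agent.P194.ker_idem_trivial φ p hc ht),
      fun _ => Vale.Agent.P194.stablyFinite_of_central φ hc
        (Vale.Agent.P194.ker_idem_trivial φ p hc ht)⟩

end Vale.Agent.Results.P194.AllExtensions
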