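import Vale.Agent.P194.Central

/-!
# P194: central extensions preserve direct and stable finiteness

Let `K` be a field of characteristic exponent `p` (`p = 1` in characteristic zero, otherwise `p` is
the characteristic) and let `φ : G →* Q` be a group homomorphism whose kernel is central in `G` and
has no torsion prime to the characteristic: every element of finite order of the kernel has order a
power of `p` (so the kernel is torsion-free when `p = 1`).
If `K[Q]` is directly finite then so is `K[G]`, and if `K[Q]` is stably finite then so is `K[G]`.
-/

namespace Vale.Agent.Results.P194.CentralKernel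

theorem result (K : Type*) [Field K] (p : ℕ) [ExpChar K p] (G Q : Type*) [Group G] [Group Q]
    (φ : G →* Q) (hc : φ.ker ≤ Subgroup.center G)
    (ht : ∀ z ∈ φ.ker, IsOfFinOrder z → ∃ k : ℕ, z ^ (p ^ k) = 1) :
    (IsDedekindFiniteMonoid (MonoidAlgebra K Q) → IsDedekindFiniteMonoid (MonoidAlgebra K G)) ∧
    (IsStablyFiniteRing (MonoidAlgebra K Q) → IsStablyFiniteRing (MonoidAlgebra K G)) :=
  ⟨fun _ => Vale.Agent.P194.dedekindFinite_of_central φ hc
      (Vale.Agent.P194.ker_idem_trivial φ p hc ht),
   fun _ => Vale.Agent.P194.stablyFinite_of_central φ hc
      (Vale.Agent.P194.ker_idem_trivial φ p hc ht)⟩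

end Vale.Agent.Results.P194.CentralKernel
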