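import Vale.Agent.P194.FreeResNilp

/-!
# P194: extensions with free kernel preserve direct and stable finiteness

Let `K` be any commutative ring (for instance any field, of any characteristic), and let
`φ : G →* Q` be a group homomorphism whose kernel is a free group (of arbitrary rank).
If `K[Q]` is directly finite then so is `K[G]`, and if `K[Q]` is stably finite then so is `K[G]`.
-/

namespace Vale.Agent.Results.P194.FreeKernel

theorem result (K : Type*) [CommRing K] (G Q : Type*) [Group G] [Group Q] (φ : G →* Q)
    [IsFreeGroup φ.ker] :
    (IsDedekindFiniteMonoid (MonoidAlgebra K Q) → IsDedekindFiniteMonoid (MonoidAlgebra K G)) ∧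
    (IsStablyFiniteRing (MonoidAlgebra K Q) → IsStablyFiniteRing (MonoidAlgebra K G)) :=
  ⟨fun _ => Vale.Agent.P194.dedekindFinite_of_resNilp φ Vale.Agent.P194.isFreeGroup_resNilp,
   fun _ => Vale.Agent.P194.stablyFinite_of_resNilp φ Vale.Agent.P194.isFreeGroup_resNilp⟩

end Vale.Agent.Results.P194.FreeKernel
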