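import Vale.Agent.P194.ResP

/-!
# P194: extensions with residually-`p` kernel preserve direct and stable finiteness

Let `K` be a commutative ring of prime characteristic `p` (for instance a field), and let
`φ : G →* Q` be a group homomorphism whose kernel is residually a finite `p`-group (no finite
generation is assumed).  If `K[Q]` is directly finite then so is `K[G]`, and if `K[Q]` is stably
finite then so is `K[G]`.
-/

namespace Vale.Agent.Results.P194.ResiduallyPKernel

theorem result (p : ℕ) [Fact p.Prime] (K : Type*) [CommRing K] [CharP K p]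
    (G Q : Type*) [Group G] [Group Q] (φ : G →* Q)
    (hres : ∀ x : φ.ker, x ≠ 1 →
      ∃ M : Subgroup φ.ker, M.Normal ∧ (∃ k : ℕ, M.index = p ^ k) ∧ x ∉ M) :
    (IsDedekindFiniteMonoid (MonoidAlgebra K Q) → IsDedekindFiniteMonoid (MonoidAlgebra K G)) ∧
    (IsStablyFiniteRing (MonoidAlgebra K Q) → IsStablyFiniteRing (MonoidAlgebra K G)) :=
  ⟨fun _ => Vale.Agent.P194.dedekindFinite_of_resNilp φ
      (Vale.Agent.P194.resNilp_of_resP p hres),
   fun _ => Vale.Agent.P194.stablyFinite_of_resNilp φ
      (Vale.Agent.P194.resNilp_of_resP p hres)⟩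

end Vale.Agent.Results.P194.ResiduallyPKernel
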